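import Vale.Agent.P122.E.Defs

/-! # P122 / E5, part (1): cut of the Lipschitz bound of the counting excess (helper377) -/

set_option autoImplicit false

namespace Vale.Agent.P122.E

open Filter Topology Finset Vale.Agent.P127 Vale.Agent.P127.Stk Vale.Agent.P127.U Vale.Agent.P127.U.Sys Vale.Agent.P122.C2

/-- positions of the tubes of one flag: the axis of the tube of level `d` passes within `C 2^(d n)` of the tube of level
`c ≤ d` -/
def E5Geo : Prop := ∀ {K : ℕ} (F : Flg K), ∃ C' : ℝ, 1 ≤ C' ∧ ∀ i ω, 0 < (F.S.P i).w ω → ∀ c d, c ≤ d → d ≤ K →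
  (F.N c i ω).T / 2 ^ (2 * (d - c) * F.n i) = (F.N d i ω).T ∧
  (∀ k, (F.N d i ω).τ k / 2 ^ ((d - c) * F.n i) = (F.N c i ω).τ k) ∧
  Cap (F.n i) d (F.N d i ω).τ ∧
  (∀ k, |F.s i d (F.N d i ω).τ k - F.s i c (F.N c i ω).τ k| ≤ C' / 2 ^ (c * F.n i)) ∧
  (∀ k, |(2:ℝ) ^ (c * F.n i) * ((F.N c i ω).o k : ℝ) - (2 ^ (d * F.n i) * ((F.N d i ω).o k : ℝ) +
    (((F.N c i ω).T : ℝ) * 2 ^ (2 * c * F.n i) - ((F.N d i ω).T : ℝ) * 2 ^ (2 * d * F.n i)) *
      F.s i d (F.N d i ω).τ k)| ≤ C' * 2 ^ (d * F.n i)) ∧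
  (0 ≤ ((F.N c i ω).T : ℝ) * 2 ^ (2 * c * F.n i) - ((F.N d i ω).T : ℝ) * 2 ^ (2 * d * F.n i)) ∧
  (((F.N c i ω).T : ℝ) * 2 ^ (2 * c * F.n i) - ((F.N d i ω).T : ℝ) * 2 ^ (2 * d * F.n i) ≤ 2 ^ (2 * d * F.n i))

/-- (up) a bound of the densities at the level `j` gives a bound at the lower level `i` -/
def E5Up : Prop := ∀ {K : ℕ} (F : Flg K) (i j : ℕ) (e : ℝ), 1 ≤ K → i ≤ j → j ≤ K → ExU F j e →
  ExU F i (e + 4 * ((j:ℝ) - i) / K)

/-- (down) a bound of the densities at the level `i` gives a bound at the higher level `j` -/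
def E5Dn : Prop := ∀ {K : ℕ} (F : Flg K) (i j : ℕ) (e : ℝ), 1 ≤ K → i ≤ j → j ≤ K → ExU F i e →
  ExU F j (e + 20 * ((j:ℝ) - i) / K)

/-- (pin) the excess of a regular system is pinned by its boxes -/
def E5Pin : Prop := AllA fun {K} F _ _ _ e _ _ _ => ∀ c e', c ≤ K → ExU F c e' → e c ≤ e' + 1 / K

/-- part (1) of `E5` -/
def E5Lip (C₀ : ℝ) : Prop := AllA fun {K} _ _ _ _ e _ _ _ =>
  ∀ i j, i ≤ K → j ≤ K → |e i - e j| ≤ C₀ * |(i:ℝ) - j| / K + C₀ / K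

theorem e5Lip_of (hU : E5Up) (hD : E5Dn) (hP : E5Pin) : E5Lip 20 := by
  intro K F J θ H e W kk jj hK h i j hi hj
  have hK0 : (0:ℝ) < K := by exact_mod_cast hK
  have main : ∀ i j, i ≤ j → j ≤ K → |e i - e j| ≤ 20 * ((j:ℝ) - i) / K + 20 / K := by
    intro i j hij hj
    have hij' : (0:ℝ) ≤ (j:ℝ) - i := by
      have : (i:ℝ) ≤ j := by exact_mod_cast hij
      linarith
    have h1 := hP F J θ H e W kk jj hK h i _ (hij.trans hj) (hU F i j _ hK hij hj (h.exU j hj))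
    have h2 := hP F J θ H e W kk jj hK h j _ hj (hD F i j _ hK hij hj (h.exU i (hij.trans hj)))
    have h3 : 4 * ((j:ℝ) - i) / K ≤ 20 * ((j:ℝ) - i) / K := by gcongr; norm_num
    have h4 : (1:ℝ) / K ≤ 20 / K := by gcongr; norm_num
    rw [abs_le]
    constructor <;> linarith
  rcases le_total i j with hij | hij
  · have := main i j hij hj
    have h5 : |(i:ℝ) - j| = (j:ℝ) - i := by
      rw [abs_sub_comm, abs_of_nonneg]
      have : (i:ℝ) ≤ j := by exact_mod_cast hij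
      linarith
    rw [h5]; exact this
  · have := main j i hij hi
    have h5 : |(i:ℝ) - j| = (i:ℝ) - j := by
      rw [abs_of_nonneg]
      have : (j:ℝ) ≤ i := by exact_mod_cast hij
      linarith
    rw [h5, abs_sub_comm]; exact this

end Vale.Agent.P122.E
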