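import Vale.Agent.P122.H377.E5Geo
import Vale.Agent.P122.H369.E5d
import Vale.Agent.P122.H535.Up
import Vale.Agent.P122.H327.Dn

/-! # P122 / E5 : assembly (helper377, with helper369, helper535, helper327) -/

set_option autoImplicit false

namespace Vale.Agent.P122.E

theorem e5_377 : E5 26 := H369.E5_of_updn (e5Up_of e5Geo377) (e5Dn_of e5Geo377)

end Vale.Agent.P122.E
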