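import Vale.Agent.P122.H377.E5Cut
import Vale.Agent.P122.K931.Zero

/-! # P122 / E5 : geometry of one flag (helper377), from the chain geometry of helper474 / helper931 -/

set_option autoImplicit false

namespace Vale.Agent.P122.E

open Filter Topology Finset Vale.Agent.P127 Vale.Agent.P127.Stk Vale.Agent.P127.U Vale.Agent.P127.U.Sys Vale.Agent.P122.C2

theorem e5Geo377 : E5Geo := by
  intro K F
  have hC := K931.C_nonneg F
  refine ⟨(F.C + 2) * K + 1, by
    have : (0:ℝ) ≤ K := Nat.cast_nonneg K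
    nlinarith, ?_⟩
  intro i ω hω c d hcd hd
  have h := K931.chn_of F hω
  have hcK : (c:ℝ) ≤ K := by exact_mod_cast hcd.trans hd
  have hdK : (d:ℝ) ≤ K := by exact_mod_cast hd
  have hcd' : (c:ℝ) ≤ d := by exact_mod_cast hcd
  have hc0 : (0:ℝ) ≤ c := Nat.cast_nonneg _
  have hdc : (0:ℝ) ≤ (d:ℝ) - c := by linarith
  have hb : (d:ℝ) - c ≤ K := by linarith
  have hK0 : (0:ℝ) ≤ K := Nat.cast_nonneg K
  have et : H474.tm (F.n i) c (F.N c i ω) - H474.tm (F.n i) d (F.N d i ω) =
      ((F.N c i ω).T : ℝ) * 2 ^ (2 * c * F.n i) - ((F.N d i ω).T : ℝ) * 2 ^ (2 * d * F.n i) := by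
    unfold H474.tm; ring
  refine ⟨(h.T_eq hcd hd).symm, fun k => (h.tau_eq hcd hd k).symm, h.cap d hd, fun k => ?_, fun k => ?_, ?_, ?_⟩
  · have h1 := h.slope (F.slp i) hcd hd k
    rw [abs_sub_comm]
    refine h1.trans ?_
    apply div_le_div_of_nonneg_right _ (by positivity)
    nlinarith
  · have h1 := h.posn (F.slp i) hcd hd k
    rw [et] at h1
    have e1 : H474.ps (F.n i) c (F.N c i ω) k = 2 ^ (c * F.n i) * ((F.N c i ω).o k : ℝ) := rfl
    have e2 : H474.ps (F.n i) d (F.N d i ω) k = 2 ^ (d * F.n i) * ((F.N d i ω).o k : ℝ) := rfl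
    rw [e1, e2] at h1
    refine h1.trans ?_
    apply mul_le_mul_of_nonneg_right _ (by positivity)
    nlinarith
  · rw [← et]; exact h.tm_sub_nonneg hcd hd
  · rw [← et]
    have h1 := h.tm_sub_le hcd hd
    have h2 : (0:ℝ) < 2 ^ (2 * c * F.n i) := by positivity
    linarith

end Vale.Agent.P122.E
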